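import Vale.Agent.P181.SZ.Defs

set_option autoImplicit false

/-!
# P181, SZ, R5: marks

Multiplication by even powers of minors in the rows `0, …, r`.
-/

open MvPolynomial

namespace Vale.Agent.P181.SZR5b

open Vale.Agent.P181.T4 (HW rowOp rowW rowOp_apply mem_HW_iff_isWeightedHomogeneous)
open Vale.Agent.P181.SZ

section der

variable {n : ℕ} {σ : Type} [Fintype σ]

/-- The row operator as a derivation. -/
noncomputable def dl (s i : Fin n) :
    Derivation ℂ (MvPolynomial (Fin n × σ) ℂ) (MvPolynomial (Fin n × σ) ℂ) :=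
  ∑ j, (X (s, j) : MvPolynomial (Fin n × σ) ℂ) • pderiv (i, j)

lemma dl_apply (s i : Fin n) (f : MvPolynomial (Fin n × σ) ℂ) : dl s i f = rowOp s i f := by
  rw [rowOp_apply, dl]
  have h : ∀ S : Finset σ, (∑ j ∈ S, (X (s, j) : MvPolynomial (Fin n × σ) ℂ) •
      pderiv (R := ℂ) (i, j)) f = ∑ j ∈ S, X (s, j) * pderiv (i, j) f := by
    classical
    intro S
    induction S using Finset.induction_on with
    | empty => rfl
    | insert a S ha ih =>
      rw [Finset.sum_insert ha, Finset.sum_insert ha, Derivation.add_apply, ih]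
      rfl
  exact h _

lemma dl_X_self (s i : Fin n) (j : σ) : dl s i (X (i, j)) = X (s, j) := by
  classical
  rw [dl_apply, rowOp_apply, Finset.sum_eq_single j]
  · simp
  · intro k _ hk
    rw [pderiv_X_of_ne (by intro h; exact hk (Prod.ext_iff.1 h).2.symm), mul_zero]
  · intro h
    exact absurd (Finset.mem_univ _) h

lemma dl_X_ne (s i k : Fin n) (h : k ≠ i) (j : σ) : dl s i (X (k, j)) = 0 := by
  rw [dl_apply, rowOp_apply]
  apply Finset.sum_eq_zero
  intro l _
  rw [pderiv_X_of_ne (by intro h'; exact h (Prod.ext_iff.1 h').1), mul_zero]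

omit [Fintype σ] in
lemma dl_prod_zero {ι : Type} (D : Derivation ℂ (MvPolynomial (Fin n × σ) ℂ)
    (MvPolynomial (Fin n × σ) ℂ)) (S : Finset ι) (g : ι → MvPolynomial (Fin n × σ) ℂ)
    (h : ∀ i ∈ S, D (g i) = 0) : D (∏ i ∈ S, g i) = 0 := by
  classical
  induction S using Finset.induction_on with
  | empty => simp
  | insert a S ha ih =>
    rw [Finset.prod_insert ha, Derivation.leibniz, h a (Finset.mem_insert_self _ _),
      ih (fun i hi => h i (Finset.mem_insert_of_mem hi)), smul_zero, smul_zero, add_zero]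

omit [Fintype σ] in
lemma dl_det_zero {q : ℕ} (D : Derivation ℂ (MvPolynomial (Fin n × σ) ℂ)
    (MvPolynomial (Fin n × σ) ℂ)) (M : Matrix (Fin q) (Fin q) (MvPolynomial (Fin n × σ) ℂ))
    (h : ∀ i j, D (M i j) = 0) : D M.det = 0 := by
  rw [Matrix.det_apply, map_sum]
  apply Finset.sum_eq_zero
  intro p _
  rw [Units.smul_def, map_zsmul, dl_prod_zero D _ _ (fun i _ => h _ _), smul_zero]

/-- The column weight of a variable. -/
def colW (n : ℕ) (σ : Type) [DecidableEq σ] : Fin n × σ → (σ → ℕ) := fun p => Pi.single p.2 1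

lemma weight_colW [DecidableEq σ] (v : Fin n × σ →₀ ℕ) (j : σ) :
    Finsupp.weight (colW n σ) v j = ∑ i, v (i, j) := by
  have h0 : v.sum (fun p c => c • colW n σ p) j = ∑ p ∈ v.support, (v p • colW n σ p) j := by
    rw [Finsupp.sum, Finset.sum_apply]
  have h1 : ∑ p ∈ v.support, (v p • colW n σ p) j = ∑ p : Fin n × σ, (v p • colW n σ p) j := by
    apply Finset.sum_subset (Finset.subset_univ _)
    intro p _ hp
    rw [Finsupp.notMem_support_iff.1 hp, zero_smul, Pi.zero_apply]
  rw [Finsupp.weight_apply, h0, h1, Fintype.sum_prod_type_right, Finset.sum_eq_single j]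
  · apply Finset.sum_congr rfl
    intro i _
    simp [colW]
  · intro k _ hk
    apply Finset.sum_eq_zero
    intro i _
    simp [colW, Pi.single_eq_of_ne (Ne.symm hk)]
  · intro h
    exact absurd (Finset.mem_univ _) h

lemma col_iff [DecidableEq σ] {d : σ → ℕ} {f : MvPolynomial (Fin n × σ) ℂ} :
    (∀ v, coeff v f ≠ 0 → ∀ j, ∑ i, v (i, j) = d j) ↔ IsWeightedHomogeneous (colW n σ) f d := by
  constructor
  · intro h v hv
    funext j
    rw [weight_colW]
    exact h v hv j
  · intro h v hv j
    rw [← weight_colW, h hv]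

/-- Products of highest weight polynomials. -/
lemma HW_mul {lam mu : Fin n → ℕ} {f g : MvPolynomial (Fin n × σ) ℂ} (hf : f ∈ HW n σ lam)
    (hg : g ∈ HW n σ mu) : f * g ∈ HW n σ (lam + mu) := by
  rw [mem_HW_iff_isWeightedHomogeneous] at hf hg ⊢
  refine ⟨hf.1.mul hg.1, fun s i h => ?_⟩
  have h1 := hf.2 s i h
  have h2 := hg.2 s i h
  rw [← dl_apply] at h1 h2 ⊢
  rw [Derivation.leibniz, h1, h2, smul_zero, smul_zero, add_zero]

lemma HW_one : (1 : MvPolynomial (Fin n × σ) ℂ) ∈ HW n σ 0 := by
  rw [mem_HW_iff_isWeightedHomogeneous]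
  refine ⟨isWeightedHomogeneous_one _ _, fun s i h => ?_⟩
  rw [← dl_apply, Derivation.map_one_eq_zero]

lemma HW_pow {lam : Fin n → ℕ} {f : MvPolynomial (Fin n × σ) ℂ} (hf : f ∈ HW n σ lam) (k : ℕ) :
    f ^ k ∈ HW n σ (k • lam) := by
  induction k with
  | zero => simpa using HW_one
  | succ k ih =>
    rw [pow_succ, succ_nsmul]
    exact HW_mul ih hf

lemma HW_prod {ι : Type} (S : Finset ι) (lam : ι → Fin n → ℕ)
    (f : ι → MvPolynomial (Fin n × σ) ℂ) (hf : ∀ i ∈ S, f i ∈ HW n σ (lam i)) :
    ∏ i ∈ S, f i ∈ HW n σ (∑ i ∈ S, lam i) := by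
  classical
  induction S using Finset.induction_on with
  | empty => simpa using HW_one
  | insert a S ha ih =>
    rw [Finset.prod_insert ha, Finset.sum_insert ha]
    exact HW_mul (hf a (Finset.mem_insert_self _ _))
      (ih (fun i hi => hf i (Finset.mem_insert_of_mem hi)))

end der

section ren

variable {n : ℕ} {σ τ : Type} [Fintype σ] [Fintype τ]

/-- Renaming of the columns. -/
def rc (n : ℕ) (e : σ → τ) : Fin n × σ → Fin n × τ := fun p => (p.1, e p.2)

omit [Fintype σ] [Fintype τ] in
lemma rc_inj {e : σ → τ} (he : Function.Injective e) : Function.Injective (rc n e) := by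
  rintro ⟨a, b⟩ ⟨c, d⟩ h
  rw [rc, rc, Prod.mk.injEq] at h
  rw [Prod.mk.injEq]
  exact ⟨h.1, he h.2⟩

lemma rowOp_rename (e : σ → τ) (s i : Fin n)
    (f : MvPolynomial (Fin n × σ) ℂ) :
    rowOp s i (rename (rc n e) f) = rename (rc n e) (rowOp s i f) := by
  rw [← dl_apply, ← dl_apply]
  induction f using MvPolynomial.induction_on with
  | C a =>
    rw [rename_C, ← algebraMap_eq, Derivation.map_algebraMap, ← algebraMap_eq,
      Derivation.map_algebraMap, map_zero]
  | add p q hp hq => rw [map_add, map_add, hp, hq, map_add, map_add]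
  | mul_X p v hp =>
    rw [map_mul, Derivation.leibniz, Derivation.leibniz, map_add, hp]
    simp only [smul_eq_mul, map_mul]
    congr 1
    · congr 1
      rw [rename_X]
      obtain ⟨k, j⟩ := v
      rw [rc]
      by_cases hk : k = i
      · subst hk
        rw [dl_X_self, dl_X_self, rename_X]
        rfl
      · rw [dl_X_ne _ _ _ hk, dl_X_ne _ _ _ hk, map_zero]

omit [Fintype σ] [Fintype τ] in
lemma wh_rename {α β M : Type} [AddCommMonoid M] {w : α → M} {w' : β → M} {F : α → β}
    (hw : ∀ x, w' (F x) = w x) {d : M} {f : MvPolynomial α ℂ}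
    (hf : IsWeightedHomogeneous w f d) : IsWeightedHomogeneous w' (rename F f) d := by
  intro v hv
  obtain ⟨u, hu, hc⟩ := coeff_rename_ne_zero _ _ _ hv
  have h := Finsupp.sum_mapDomain_index (f := F) (s := u) (h := fun i c => c • w' i)
    (fun b => zero_smul _ _) (fun b m₁ m₂ => add_smul _ _ _)
  rw [← hf hc, ← hu, Finsupp.weight_apply, Finsupp.weight_apply, h]
  exact Finsupp.sum_congr (fun x _ => by rw [hw])

lemma HW_rename (e : σ → τ) {lam : Fin n → ℕ}
    {f : MvPolynomial (Fin n × σ) ℂ} (hf : f ∈ HW n σ lam) :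
    rename (rc n e) f ∈ HW n τ lam := by
  rw [mem_HW_iff_isWeightedHomogeneous] at hf ⊢
  refine ⟨?_, fun s i h => ?_⟩
  · exact wh_rename (fun x => rfl) hf.1
  · rw [rowOp_rename, hf.2 s i h, map_zero]

omit [Fintype σ] [Fintype τ] in
lemma col_rename {e : σ → τ} (he : Function.Injective e) {d : σ → ℕ} {d' : τ → ℕ}
    (h1 : ∀ j, d' (e j) = d j) (h2 : ∀ j, j ∉ Set.range e → d' j = 0)
    {f : MvPolynomial (Fin n × σ) ℂ} (hf : ∀ v, coeff v f ≠ 0 → ∀ j, ∑ i, v (i, j) = d j) :
    ∀ v, coeff v (rename (rc n e) f) ≠ 0 → ∀ j, ∑ i, v (i, j) = d' j := by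
  intro v hv j
  obtain ⟨u, rfl, hc⟩ := coeff_rename_ne_zero _ _ _ hv
  by_cases hj : j ∈ Set.range e
  · obtain ⟨k, rfl⟩ := hj
    rw [h1, ← hf u hc k]
    refine Finset.sum_congr rfl (fun i _ => ?_)
    exact Finsupp.mapDomain_apply (rc_inj he) u (i, k)
  · rw [h2 j hj]
    refine Finset.sum_eq_zero (fun i _ => ?_)
    apply Finsupp.mapDomain_of_notMem_range
    rintro ⟨⟨a, b⟩, hab⟩
    exact hj ⟨b, (Prod.ext_iff.1 hab).2⟩

end ren

section det

variable {m r : ℕ} {σ τ : Type}

/-- The minor in the rows `0, …, r` and the columns `c`. -/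
noncomputable def Dm (hr : r < m) (c : Fin (r + 1) → τ) : MvPolynomial (Fin m × τ) ℂ :=
  Matrix.det (Matrix.of fun i j : Fin (r + 1) =>
    (X (Fin.castLE hr i, c j) : MvPolynomial (Fin m × τ) ℂ))

lemma Dm_rowOp [Fintype τ] (hr : r < m) (c : Fin (r + 1) → τ) (s i : Fin m) (h : s < i) :
    rowOp s i (Dm hr c) = 0 := by
  classical
  rw [← dl_apply]
  by_cases hi : (i : ℕ) ≤ r
  · obtain ⟨i', rfl⟩ : ∃ i' : Fin (r + 1), Fin.castLE hr i' = i := ⟨⟨i, by omega⟩, rfl⟩
    obtain ⟨s', rfl⟩ : ∃ s' : Fin (r + 1), Fin.castLE hr s' = s :=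
      ⟨⟨s, by have := Fin.lt_def.1 h; omega⟩, rfl⟩
    have hne : s' ≠ i' := by
      rintro rfl
      exact lt_irrefl _ h
    rw [Dm]
    set A : Matrix (Fin (r + 1)) (Fin (r + 1)) (MvPolynomial (Fin m × τ) ℂ) :=
      Matrix.of fun i j : Fin (r + 1) =>
        (X (Fin.castLE hr i, c j) : MvPolynomial (Fin m × τ) ℂ) with hA
    have e1 : A.det = ∑ j, A i' j * A.adjugate j i' := by
      have h1 := congrFun (congrFun (Matrix.mul_adjugate A) i') i'
      rw [Matrix.mul_apply] at h1
      rw [h1, Matrix.smul_apply, Matrix.one_apply_eq, smul_eq_mul, mul_one]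
    have e2 : ∑ j, A s' j * A.adjugate j i' = 0 := by
      have h1 := congrFun (congrFun (Matrix.mul_adjugate A) s') i'
      rw [Matrix.mul_apply] at h1
      rw [h1, Matrix.smul_apply, Matrix.one_apply_ne hne, smul_zero]
    rw [e1, map_sum, ← e2]
    refine Finset.sum_congr rfl (fun j _ => ?_)
    have h3 : dl (Fin.castLE hr s') (Fin.castLE hr i') (A.adjugate j i') = 0 := by
      rw [Matrix.adjugate_apply]
      apply dl_det_zero
      intro k l
      by_cases hk : k = i'
      · subst hk
        rw [Matrix.updateRow_self]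
        by_cases hl : l = j
        · subst hl
          rw [Pi.single_eq_same, Derivation.map_one_eq_zero]
        · rw [Pi.single_eq_of_ne hl, map_zero]
      · rw [Matrix.updateRow_ne hk]
        exact dl_X_ne _ _ _ (fun h' => hk (Fin.castLE_injective hr h')) _
    have h4 : dl (Fin.castLE hr s') (Fin.castLE hr i') (A i' j) = A s' j := dl_X_self _ _ _
    rw [Derivation.leibniz, h3, smul_zero, zero_add, smul_eq_mul, h4, mul_comm]
  · rw [Dm]
    apply dl_det_zero
    intro k l
    refine dl_X_ne _ _ _ (fun h' => hi ?_) _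
    rw [← h']
    exact Nat.lt_succ_iff.1 k.2

lemma Dm_wh {M : Type} [AddCommMonoid M] (w : Fin m × τ → M) (hr : r < m)
    (c : Fin (r + 1) → τ) (d : M)
    (h : ∀ p : Equiv.Perm (Fin (r + 1)), ∑ i, w (Fin.castLE hr (p i), c i) = d) :
    IsWeightedHomogeneous w (Dm hr c) d := by
  rw [Dm, Matrix.det_apply, ← mem_weightedHomogeneousSubmodule]
  refine Submodule.sum_mem _ (fun p _ => ?_)
  rw [Units.smul_def]
  apply zsmul_mem
  rw [mem_weightedHomogeneousSubmodule, ← h p]
  exact IsWeightedHomogeneous.prod _ _ _ (fun i _ => isWeightedHomogeneous_X _ _ _)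

lemma Dm_HW [Fintype τ] (hr : r < m) (c : Fin (r + 1) → τ) :
    Dm hr c ∈ HW m τ (fun i => if (i : ℕ) ≤ r then 1 else 0) := by
  classical
  rw [mem_HW_iff_isWeightedHomogeneous]
  refine ⟨Dm_wh _ hr c _ (fun p => ?_), fun s i h => Dm_rowOp hr c s i h⟩
  have h1 : ∑ i, rowW m τ (Fin.castLE hr (p i), c i) =
      ∑ i : Fin (r + 1), (Pi.single (Fin.castLE hr i) 1 : Fin m → ℕ) :=
    Equiv.sum_comp p (fun i => (Pi.single (Fin.castLE hr i) 1 : Fin m → ℕ))
  rw [h1]
  funext k
  rw [Finset.sum_apply]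
  by_cases hk : (k : ℕ) ≤ r
  · rw [if_pos hk, Finset.sum_eq_single ⟨(k : ℕ), by omega⟩]
    · exact Pi.single_eq_same _ _
    · intro b _ hb
      refine Pi.single_eq_of_ne (fun h => hb ?_) _
      exact Fin.ext (by simpa using (congrArg Fin.val h).symm)
    · intro h
      exact absurd (Finset.mem_univ _) h
  · rw [if_neg hk]
    refine Finset.sum_eq_zero (fun b _ => Pi.single_eq_of_ne (fun h => hk ?_) _)
    rw [h]
    exact Nat.lt_succ_iff.1 b.2

lemma rename_Dm (hr : r < m) (c : Fin (r + 1) → σ) (e : σ → τ) :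
    rename (rc m e) (Dm hr c) = Dm hr (e ∘ c) := by
  rw [Dm, Dm, AlgHom.map_det]
  congr 1
  ext1 i j
  simp [rc]

lemma Dm_perm (hr : r < m) (c : Fin (r + 1) → τ) (p : Equiv.Perm (Fin (r + 1))) :
    Dm hr (c ∘ p) = ((Equiv.Perm.sign p : ℤ) : MvPolynomial (Fin m × τ) ℂ) * Dm hr c := by
  rw [Dm, Dm, ← Matrix.det_permute']
  rfl

lemma Dm_even (hr : r < m) (c : Fin (r + 1) → τ) (hc : Function.Injective c)
    (e : Equiv.Perm τ) (h : ∀ i, ∃ i', e (c i) = c i') (k : ℕ) :
    rename (rc m e) (Dm hr c ^ (2 * k)) = Dm hr c ^ (2 * k) := by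
  choose g hg using h
  have hgi : Function.Injective g := fun i j hij => hc (e.injective (by rw [hg, hg, hij]))
  let p : Equiv.Perm (Fin (r + 1)) :=
    Equiv.ofBijective g (Finite.injective_iff_bijective.1 hgi)
  have h1 : (⇑e : τ → τ) ∘ c = c ∘ p := funext hg
  rw [map_pow, rename_Dm, h1, Dm_perm, mul_pow]
  have h2 : ((Equiv.Perm.sign p : ℤ) : MvPolynomial (Fin m × τ) ℂ) ^ (2 * k) = 1 := by
    rw [pow_mul]
    have h3 : ((Equiv.Perm.sign p : ℤ) : MvPolynomial (Fin m × τ) ℂ) ^ 2 = 1 := by
      rcases Int.units_eq_one_or (Equiv.Perm.sign p) with h | h <;> rw [h] <;> simp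
    rw [h3, one_pow]
  rw [h2, one_mul]

lemma Dm_ne (hr : r < m) (c : Fin (r + 1) → τ) (hc : Function.Injective c) : Dm hr c ≠ 0 := by
  have h1 : Dm hr c = rename (fun p : Fin (r + 1) × Fin (r + 1) => (Fin.castLE hr p.1, c p.2))
      (Matrix.det (Matrix.mvPolynomialX (Fin (r + 1)) (Fin (r + 1)) ℂ)) := by
    rw [AlgHom.map_det, Dm]
    congr 1
    ext1 i j
    simp
  rw [h1]
  intro h
  have hinj : Function.Injective
      (fun p : Fin (r + 1) × Fin (r + 1) => ((Fin.castLE hr p.1, c p.2) : Fin m × τ)) := by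
    rintro ⟨a, b⟩ ⟨a', b'⟩ h2
    rw [Prod.mk.injEq] at h2 ⊢
    exact ⟨Fin.castLE_injective hr h2.1, hc h2.2⟩
  exact Matrix.det_mvPolynomialX_ne_zero (Fin (r + 1)) ℂ
    (rename_injective _ hinj (h.trans (map_zero _).symm))

end det

section main

variable {m r x t : ℕ} {σ : Type}

lemma lt_mkc (ht : 2 ≤ t) {q : ℕ} (hq : q < t) : 2 * x + 2 * q + 2 < mkc x t := by
  have h1 : ∃ q', q' < t ∧ q ≠ q' := by
    by_cases h : q = 0
    · exact ⟨1, by omega, by omega⟩
    · exact ⟨0, by omega, h⟩
  obtain ⟨q', h2, h3⟩ := h1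
  have h4 : ∑ i ∈ ({q, q'} : Finset ℕ), (2 * x + 2 * i + 2) ≤ mkc x t := by
    apply Finset.sum_le_sum_of_subset
    intro i hi
    rw [Finset.mem_insert, Finset.mem_singleton] at hi
    rw [Finset.mem_range]
    rcases hi with rfl | rfl <;> assumption
  rw [Finset.sum_pair h3] at h4
  omega

/-- The sizes of the marks. -/
def d2 (x t r : ℕ) : Option (Fin t × Fin r) → ℕ
  | none => mkc x t
  | some p => 2 * x + 2 * (p.1 : ℕ) + 2

/-- The columns of the `q`-th minor. -/
def cq (σ : Type) (t r : ℕ) (q : Fin t) : Fin (r + 1) → σ ⊕ Option (Fin t × Fin r) :=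
  Fin.cons (Sum.inr none) (fun s => Sum.inr (some (q, s)))

lemma cq_zero (q : Fin t) : cq σ t r q 0 = Sum.inr none := rfl

lemma cq_succ (q : Fin t) (s : Fin r) : cq σ t r q s.succ = Sum.inr (some (q, s)) := rfl

lemma cq_inj (q : Fin t) : Function.Injective (cq σ t r q) := by
  intro i j h
  induction i using Fin.cases with
  | zero =>
    induction j using Fin.cases with
    | zero => rfl
    | succ j =>
      rw [cq_zero, cq_succ] at h
      simp at h
  | succ i =>
    induction j using Fin.cases with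
    | zero =>
      rw [cq_zero, cq_succ] at h
      simp at h
    | succ j =>
      rw [cq_succ, cq_succ, Sum.inr.injEq, Option.some.injEq, Prod.mk.injEq] at h
      rw [h.2]

lemma perm_marks (ht : 2 ≤ t) (d0 : σ → ℕ) (h0 : ∀ j, d0 j ≤ 2 * x + 1)
    (e : Equiv.Perm (σ ⊕ Option (Fin t × Fin r)))
    (he : ∀ j, Sum.elim d0 (d2 x t r) (e j) = Sum.elim d0 (d2 x t r) j) :
    (∀ j, ∃ j', e (Sum.inl j) = Sum.inl j') ∧
      ∀ q : Fin t, ∀ i, ∃ i', e (cq σ t r q i) = cq σ t r q i' := by
  have hM : 2 * x + 2 < mkc x t := by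
    have := lt_mkc (x := x) ht (q := 0) (by omega)
    omega
  refine ⟨fun j => ?_, fun q i => ?_⟩
  · have h1 := he (Sum.inl j)
    have h2 := h0 j
    rcases h3 : e (Sum.inl j) with j' | o
    · exact ⟨j', rfl⟩
    · rw [h3] at h1
      rcases o with _ | p
      · simp only [Sum.elim_inr, Sum.elim_inl, d2] at h1
        omega
      · simp only [Sum.elim_inr, Sum.elim_inl, d2] at h1
        omega
  · induction i using Fin.cases with
    | zero =>
      refine ⟨0, ?_⟩
      rw [cq_zero]
      have h1 := he (Sum.inr none)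
      rcases h3 : e (Sum.inr none) with j' | o
      · rw [h3] at h1
        have h2 := h0 j'
        simp only [Sum.elim_inr, Sum.elim_inl, d2] at h1
        omega
      · rw [h3] at h1
        rcases o with _ | p
        · rfl
        · simp only [Sum.elim_inr, d2] at h1
          have := lt_mkc (x := x) ht p.1.2
          omega
    | succ s =>
      rw [cq_succ]
      have h1 := he (Sum.inr (some (q, s)))
      rcases h3 : e (Sum.inr (some (q, s))) with j' | o
      · rw [h3] at h1
        have h2 := h0 j'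
        simp only [Sum.elim_inr, Sum.elim_inl, d2] at h1
        omega
      · rw [h3] at h1
        rcases o with _ | p
        · simp only [Sum.elim_inr, d2] at h1
          have := lt_mkc (x := x) ht q.2
          omega
        · simp only [Sum.elim_inr, d2] at h1
          have h4 : p.1 = q := Fin.ext (by omega)
          obtain ⟨p1, p2⟩ := p
          simp only at h4
          subst h4
          exact ⟨p2.succ, by rw [cq_succ]⟩

/-- Multiplication by the marks. -/
noncomputable def mul (σ : Type) {m r : ℕ} (hr : r < m) (x t : ℕ) :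
    MvPolynomial (Fin m × σ) ℂ →ₗ[ℂ]
      MvPolynomial (Fin m × (σ ⊕ Option (Fin t × Fin r))) ℂ :=
  LinearMap.mulRight ℂ (∏ q : Fin t, Dm hr (cq σ t r q) ^ (2 * (x + q + 1))) ∘ₗ
    (rename (rc m Sum.inl)).toLinearMap

lemma mul_apply (hr : r < m) (f : MvPolynomial (Fin m × σ) ℂ) :
    mul σ hr x t f = rename (rc m Sum.inl) f *
      ∏ q : Fin t, Dm hr (cq σ t r q) ^ (2 * (x + q + 1)) := rfl

lemma mul_inj (hr : r < m) : Function.Injective (mul σ hr x t) := by
  intro f g h
  rw [mul_apply, mul_apply] at h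
  have h1 : (∏ q : Fin t, Dm hr (cq σ t r q) ^ (2 * (x + q + 1))) ≠ 0 :=
    Finset.prod_ne_zero_iff.2 (fun q _ => pow_ne_zero _ (Dm_ne hr _ (cq_inj q)))
  exact rename_injective _ (rc_inj Sum.inl_injective) (mul_right_cancel₀ h1 h)

lemma mul_mem [Fintype σ] (hr : r < m) (ht : 2 ≤ t) (d0 : σ → ℕ) (h0 : ∀ j, d0 j ≤ 2 * x + 1)
    (mu nu : Fin m → ℕ) (hnu : ∀ i : Fin m, nu i = mu i + if (i : ℕ) ≤ r then mkc x t else 0)
    {f : MvPolynomial (Fin m × σ) ℂ} (hf : f ∈ PK m σ d0 mu) :
    mul σ hr x t f ∈ PK m (σ ⊕ Option (Fin t × Fin r)) (Sum.elim d0 (d2 x t r)) nu := by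
  classical
  obtain ⟨hf1, hf2, hf3⟩ := hf
  rw [mul_apply]
  refine ⟨?_, ?_, ?_⟩
  · have h1 := HW_mul (HW_rename (τ := σ ⊕ Option (Fin t × Fin r)) Sum.inl hf1)
      (HW_prod Finset.univ _ _ (fun q _ => HW_pow (Dm_HW hr (cq σ t r q)) (2 * (x + q + 1))))
    have h2 : mu + ∑ q : Fin t, (2 * (x + (q : ℕ) + 1)) •
        (fun i : Fin m => if (i : ℕ) ≤ r then 1 else 0) = nu := by
      funext i
      rw [Pi.add_apply, Finset.sum_apply, hnu i]
      congr 1
      by_cases hi : (i : ℕ) ≤ r
      · rw [if_pos hi, mkc, Finset.sum_range]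
        refine Finset.sum_congr rfl (fun q _ => ?_)
        rw [Pi.smul_apply, if_pos hi, smul_eq_mul]
        ring
      · rw [if_neg hi]
        refine Finset.sum_eq_zero (fun q _ => ?_)
        rw [Pi.smul_apply, if_neg hi, smul_zero]
    rw [h2] at h1
    exact h1
  · have h1 := col_rename (n := m) (e := (Sum.inl : σ → σ ⊕ Option (Fin t × Fin r)))
      Sum.inl_injective (d' := Sum.elim d0 (fun _ => 0)) (fun j => rfl)
      (fun j hj => by
        rcases j with j | o
        · exact absurd ⟨j, rfl⟩ hj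
        · rfl) hf2
    rw [col_iff] at h1 ⊢
    have h2 : ∀ q : Fin t, IsWeightedHomogeneous (colW m (σ ⊕ Option (Fin t × Fin r)))
        (Dm hr (cq σ t r q) ^ (2 * (x + q + 1)))
        ((2 * (x + (q : ℕ) + 1)) • ∑ i, Pi.single (cq σ t r q i) 1) := fun q =>
      (Dm_wh _ hr (cq σ t r q) _ (fun p => rfl)).pow _
    have h3 := h1.mul (IsWeightedHomogeneous.prod Finset.univ _ _ (fun q _ => h2 q))
    have h4 : (Sum.elim d0 (fun _ => 0) : σ ⊕ Option (Fin t × Fin r) → ℕ) +
        ∑ q : Fin t, (2 * (x + (q : ℕ) + 1)) • ∑ i, Pi.single (cq σ t r q i) 1 =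
        Sum.elim d0 (d2 x t r) := by
      funext j
      rw [Pi.add_apply, Finset.sum_apply]
      rcases j with j | o
      · rw [Sum.elim_inl, Sum.elim_inl, Finset.sum_eq_zero, add_zero]
        intro q _
        rw [Pi.smul_apply, Finset.sum_apply, Finset.sum_eq_zero, smul_zero]
        intro i _
        refine Pi.single_eq_of_ne ?_ _
        induction i using Fin.cases with
        | zero => rw [cq_zero]; simp
        | succ i => rw [cq_succ]; simp
      · rw [Sum.elim_inr, Sum.elim_inr, zero_add]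
        rcases o with _ | ⟨q', s'⟩
        · rw [d2, mkc, Finset.sum_range]
          refine Finset.sum_congr rfl (fun q _ => ?_)
          rw [Pi.smul_apply, Finset.sum_apply, Fin.sum_univ_succ, cq_zero, Pi.single_eq_same,
            Finset.sum_eq_zero, smul_eq_mul]
          · ring
          · intro i _
            refine Pi.single_eq_of_ne ?_ _
            rw [cq_succ]
            simp
        · rw [d2, Finset.sum_eq_single q']
          · rw [Pi.smul_apply, Finset.sum_apply, Finset.sum_eq_single s'.succ]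
            · rw [cq_succ, Pi.single_eq_same, smul_eq_mul]
              ring
            · intro i _ hi
              refine Pi.single_eq_of_ne ?_ _
              rw [← cq_succ]
              exact fun h => hi (cq_inj q' h).symm
            · intro h
              exact absurd (Finset.mem_univ _) h
          · intro q _ hq
            rw [Pi.smul_apply, Finset.sum_apply, Finset.sum_eq_zero, smul_zero]
            intro i _
            refine Pi.single_eq_of_ne ?_ _
            induction i using Fin.cases with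
            | zero => rw [cq_zero]; simp
            | succ i =>
              rw [cq_succ]
              intro h
              rw [Sum.inr.injEq, Option.some.injEq, Prod.mk.injEq] at h
              exact hq h.1.symm
          · intro h
            exact absurd (Finset.mem_univ _) h
    rw [← h4]
    exact h3
  · intro e he
    obtain ⟨h1, h2⟩ := perm_marks (r := r) ht d0 h0 e he
    change rename (rc m e) _ = _
    rw [map_mul, map_prod]
    congr 1
    · choose g hg using h1
      have hgi : Function.Injective g := fun i j hij =>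
        Sum.inl_injective (e.injective (by rw [hg, hg, hij]))
      let p : Equiv.Perm σ := Equiv.ofBijective g (Finite.injective_iff_bijective.1 hgi)
      have h3 : ∀ j, d0 (p j) = d0 j := by
        intro j
        have h4 := he (Sum.inl j)
        rw [hg] at h4
        exact h4
      have h5 := hf3 p h3
      change rename (rc m p) f = f at h5
      rw [rename_rename]
      have h6 : rc m (⇑e) ∘ rc m Sum.inl = rc m (Sum.inl : σ → σ ⊕ Option (Fin t × Fin r)) ∘
          rc m (⇑p) := by
        funext v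
        simp only [rc, Function.comp_apply, Prod.mk.injEq, true_and]
        exact hg v.2
      rw [h6, ← rename_rename, h5]
    · exact Finset.prod_congr rfl (fun q _ => Dm_even hr _ (cq_inj q) e (h2 q) _)

lemma finrank_mark [Fintype σ] (hr : r < m) (ht : 2 ≤ t) (d0 : σ → ℕ)
    (h0 : ∀ j, d0 j ≤ 2 * x + 1) (mu nu : Fin m → ℕ)
    (hnu : ∀ i : Fin m, nu i = mu i + if (i : ℕ) ≤ r then mkc x t else 0) :
    Module.finrank ℂ (PK m σ d0 mu) ≤
      Module.finrank ℂ (PK m (σ ⊕ Option (Fin t × Fin r)) (Sum.elim d0 (d2 x t r)) nu) := by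
  have hle : PK m (σ ⊕ Option (Fin t × Fin r)) (Sum.elim d0 (d2 x t r)) nu ≤
      HW m (σ ⊕ Option (Fin t × Fin r)) nu := fun f hf => hf.1
  have : FiniteDimensional ℂ
      (PK m (σ ⊕ Option (Fin t × Fin r)) (Sum.elim d0 (d2 x t r)) nu) :=
    Submodule.finiteDimensional_of_le hle
  rw [← LinearMap.finrank_range_of_inj (f := (mul σ hr x t).domRestrict (PK m σ d0 mu))
    (fun f g h => Subtype.ext (mul_inj hr h))]
  apply Submodule.finrank_mono
  rintro _ ⟨⟨f, hf⟩, rfl⟩
  exact mul_mem hr ht d0 h0 mu nu hnu hf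

lemma map_univ_val {α : Type} [Fintype α] (f : α → ℕ) :
    (Finset.univ.val.map f : Multiset ℕ) = ∑ i, ({f i} : Multiset ℕ) := by
  have h : (Finset.univ.val.map f : Multiset ℕ) =
      ((Finset.univ.val.map f).map (fun a => ({a} : Multiset ℕ))).sum :=
    (Multiset.sum_map_singleton _).symm
  rw [h, Multiset.map_map]
  rfl

lemma map_get (k : Multiset ℕ) :
    (Finset.univ.val.map (fun j : Fin k.toList.length => k.toList.get j) : Multiset ℕ) = k := by
  have h : (Finset.univ.val.map (fun j : Fin k.toList.length => k.toList.get j) : Multiset ℕ) =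
      ((List.finRange k.toList.length).map k.toList.get : List ℕ) := rfl
  rw [h, List.map_get_finRange, Multiset.coe_toList]

/-- **(R5)** -/
theorem markS (hT : TransS) : MarkS := by
  intro m r x t mu nu k hr ht hk hnu
  have h1 := finrank_mark (σ := Fin k.toList.length) hr ht (fun j => k.toList.get j)
    (fun j => hk _ (Multiset.mem_toList.1 (List.get_mem _ _))) mu nu hnu
  have h2 : nn m mu k = Module.finrank ℂ
      (PK m (Fin k.toList.length) (fun j => k.toList.get j) mu) := rfl
  have h3 : nn m nu (mkc x t ::ₘ (mks x t r + k)) =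
      nn m nu ((mkc x t ::ₘ (mks x t r + k)).filter (0 < ·)) := by
    conv_lhs => rw [nn]
    rw [hT, map_get]
  have h4 : (Finset.univ.val.map (Sum.elim (fun j : Fin k.toList.length => k.toList.get j)
      (d2 x t r)) : Multiset ℕ) = mkc x t ::ₘ (mks x t r + k) := by
    rw [map_univ_val, Fintype.sum_sum_type, Fintype.sum_option, Fintype.sum_prod_type]
    simp only [Sum.elim_inl, Sum.elim_inr]
    rw [← map_univ_val (fun j : Fin k.toList.length => k.toList.get j), map_get, mks,
      Finset.sum_range]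
    simp only [d2, Finset.sum_const, Finset.card_univ, Fintype.card_fin,
      Multiset.nsmul_singleton]
    rw [← Multiset.singleton_add]
    abel
  rw [h2, h3]
  refine h1.trans (le_of_eq ?_)
  rw [hT, h4]

end main

end Vale.Agent.P181.SZR5b
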