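import Vale.Agent.P181.SZR5b.Mark
import Vale.Agent.P181.SZT0.Tr

/-!
# P181, SZ, R5: marks, without hypotheses
-/

namespace Vale.Agent.P181.SZR5b

open Vale.Agent.P181.SZ

/-- **(R5)** -/
theorem mark_s : MarkS := markS Vale.Agent.P181.SZT0.transS

end Vale.Agent.P181.SZR5b
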